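import Vale.Agent.P280Z.Nf

/-!
# P280Y: fibrations in curves
-/

open scoped Manifold ContDiff
open Vale.Agent.P272.K Vale.Agent.P285.H281.FD Vale.Agent.P281Z

noncomputable section

namespace Vale.Agent.P280Y

/-- `X` is fibred in curves: there is a holomorphic map to a manifold `Y` of dimension `n - 1` with
a positive line bundle, whose differential is surjective at some point -/
def Fibred (n : ℕ) (X : Type) [TopologicalSpace X] [ChartedSpace (Cm n) X] : Prop :=
  ∃ (m : ℕ) (Y : Mf m) (π : X → Y.X) (L : Bd Y.X) (x : X),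
    n = m + 1 ∧ IsLB m L ∧ Pos m L ∧ HolM n m π ∧ Sbm n m π x

end Vale.Agent.P280Y
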