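import Vale.Agent.P280Z.Po.All

/-!
# P280Y: a bundle of projective lines, in all dimensions
-/

open scoped Manifold ContDiff Topology Matrix
open Set Filter
open Vale.Agent.P272.K Vale.Agent.P285.H281.FD Vale.Agent.P281Z
open Vale.Agent.P277.HD (pull)
open Vale.Agent.P280Z Vale.Agent.P280Z.Rh Vale.Agent.P280Z.Po
open Vale.Agent.P280Z.Gp (Gen)

noncomputable section

namespace Vale.Agent.P280Y

/-- one of the families is a bundle of projective lines -/
def PONE' : Prop := ∀ T : CT, Th T → ∀ {n : ℕ} (V : Mf n) (B : Bas T V), IH n → Cls n V →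
  Nontrivial B.J → (∃ j, (B.F j).m = 0) → Gen n V.X

theorem pone_of' (hX : XT) (hB : RLB) (hL : LIFT) (hV : VERT) (hE : ETG) (hQ : NQ) (hN : NRM)
    (hA : ALG) (hM : LAM) (hS : SGN) (hZ : DGZ) (hF : RFA) (hF' : RFB) (hD : DIM1) (hR : TRV) :
    PONE' := by
  rintro T ⟨hT, -, -⟩ n V B ih hV' hJ ⟨i, hi⟩
  obtain ⟨hc, hk⟩ := (fano_iff hT V).1 hV'.1
  have kV : V.Kah := (hT.po.kah V).2 ⟨_, hk⟩
  have rt : ∀ i, (B.F i).m = 0 → Rt (B.F i) (T.c1 V (La B i)) := fun i hi => by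
    rw [La, c1_lam hT (B.Q {i}).sub.hol]
    exact (hM T hT B i hi).2.1
  have sg : ∀ i j, (B.F i).m = 0 → j ≠ i →
      (B.F i).dg (T.c1 V (La B i)) = 2 ∧ (B.F j).dg (T.c1 V (La B i)) ≤ 0 := fun i j hi hj =>
    hS T hT _ _ _ (B.H i) hi (rt i hi) (B.nn i) (by rw [B.dual, if_pos rfl])
      (by rw [B.dual, if_neg hj])
  have gY : ∀ i, (B.F i).m = 0 → Gen _ (B.Q {i}).Y.X := fun i hi =>
    ih _ (by have := (hM T hT B i hi).1; omega) _ (B.cls _)
  have main : ∀ i j (k : ℕ), (B.F i).m = 0 → j ≠ i →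
      (B.F j).dg (T.c1 V (La B i)) = -((k : ℝ) + 1) → (k = 0 ∨ 0 < (B.F j).m) → Gen n V.X := by
    intro i j k hi hj ha hk
    have hn := (hM T hT B i hi).1
    have hs := (B.Q {i}).sub
    have neg : (B.F j).dg (T.c1 V (La B i)) < 0 := by
      rw [ha]
      exact neg_neg_of_pos k.cast_add_one_pos
    obtain ⟨v, hv⟩ := hB V _ _ hs hn
    rcases hV V _ _ hs hn inferInstance (hL T hT V _ _ _ v hn hs ⟨_, lb_inv (lb_can V), hV'.1.2⟩ hv
      (hX T hT (B.F j) _ k ha hk)) (gY i hi) with h | h | ⟨O, ι, L, s, h1, h2, h3⟩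
    · exact h
    · exact absurd (hQ T hT (B.F j) _ hV'.2 (lb_La B i) h) neg.not_ge
    · obtain ⟨k1, k2, k3⟩ := hN T hT V _ O _ hs.hol L s ι kV h1 h2 h3
      rw [← c1_lam hT hs.hol] at k1
      exact (hA T hT (B.F i) (B.F j) _ _ (rt i hi) (hT.c1.deg V L) neg k1 k2 (k3 _) (k3 _)
        fun h => ⟨_, rt j h, (sg j i h hj.symm).2⟩).elim
  have nat : ∀ i j, (B.F j).dg (T.c1 V (La B i)) < 0 →
      ∃ k : ℕ, (B.F j).dg (T.c1 V (La B i)) = -((k : ℝ) + 1) := fun i j h => by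
    obtain ⟨z, hz⟩ := hZ T hT (B.F j) _ (lb_La B i)
    rw [hz] at h ⊢
    obtain ⟨k, rfl⟩ := Int.eq_negSucc_of_lt_zero (Int.cast_lt_zero.1 h)
    exact ⟨k, by rw [Int.cast_negSucc, Nat.cast_succ]⟩
  by_cases h0 : ∀ j, j ≠ i → (B.F j).dg (T.c1 V (La B i)) = 0
  · obtain ⟨hn, -, hp⟩ := hM T hT B i hi
    obtain ⟨j, hj⟩ := exists_ne i
    have e : T.c1 V (La B i) = (2 : ℝ) • B.H i := by
      rw [B.span _ (hT.c1.deg V _), Finset.sum_eq_single i (fun j _ h => by rw [h0 j h, zero_smul])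
        (fun h => (h (Finset.mem_univ i)).elim), (sg i j hi hj).1]
    obtain ⟨d1, n1⟩ := hD T hT B i hJ hn (e ▸ rt i hi)
    obtain ⟨v, hv⟩ := hB V _ _ (B.Q {i}).sub hn
    obtain ⟨w, -, hw⟩ := B.pH i
    obtain ⟨w', hw'⟩ := (hT.po.kah _).1 (B.Q {i}).kah
    refine hE V _ _ (B.Q {i}).π (B.Q {i}ᶜ).π (by omega) (B.Q {i}).sub.hol (B.Q {i}ᶜ).sub.hol
      (hR T hT V _ _ _ _ (B.Q {i}).sub.hol (B.Q {i}ᶜ).sub _ v w' ((2 : ℝ) • w) w hn d1 hc kV
        (B.Q {i}ᶜ).fib hv (hT.po.deg hw') (by rw [map_smul, ← hw]; exact e)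
        (by rw [← hw]; exact (hp w' hw').ne')) (gY i hi) (ih _ (by omega) _ (B.cls _))
  · push Not at h0
    obtain ⟨j, hj, h0⟩ := h0
    have neg := lt_of_le_of_ne (sg i j hi hj).2 h0
    obtain ⟨k, ha⟩ := nat i j neg
    rcases Nat.eq_zero_or_pos (B.F j).m with hm | hm
    · obtain ⟨x⟩ := hc.toNonempty
      have dH := hT.po.deg (B.nn j)
      obtain ⟨k1, k2⟩ := hF' (T.H V) (fun x => T.int V (T.pr V 1 x ^ n))
        ((B.F i).dg.comp (T.pr V 1)) ((B.F j).dg.comp (T.pr V 1)) (T.c1 V (La B i))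
        (T.c1 V (La B j)) (B.H j) (cX T V) (k + 1) (-(B.F i).dg (T.c1 V (La B j)))
        (by simpa only [map_add, map_smul, show T.pr V 1 _ = _ from dH,
          show T.pr V 1 _ = _ from dg_cX hT V] using poly (cX T V) (B.H j))
        (by rw [LinearMap.comp_apply, hT.c1.deg V, (sg i j hi hj).1])
        (by rw [LinearMap.comp_apply, hT.c1.deg V, (sg j i hm hj.symm).1])
        (by rw [LinearMap.comp_apply, hT.c1.deg V, ha])
        (by rw [LinearMap.comp_apply, hT.c1.deg V, neg_neg])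
        (two hT hF _ hi (rt i hi) fun _ => rfl) (two hT hF _ hm (rt j hm) fun _ => rfl)
        (by rw [LinearMap.comp_apply, dH, B.dual, if_neg hj.symm])
        (by rw [LinearMap.comp_apply, dH, B.dual, if_pos rfl])
        (by rw [dg_cX hT V]; exact (Ma.kc_vol hT hk x).ne') k.cast_add_one_pos
        (neg_nonneg.2 (sg j i hm hj.symm).2)
      obtain ⟨k', ha'⟩ := nat j i (neg_pos.1 k1)
      rw [ha', neg_neg] at k2
      have k3 : (k + 1) * (k' + 1) < 4 := by exact_mod_cast k2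
      rcases Nat.eq_zero_or_pos k with h | h
      · exact main i j k hi hj ha (Or.inl h)
      · exact main j i k' hm hj.symm ha' (Or.inl (by nlinarith))
    · exact main i j k hi hj ha (Or.inr hm)

theorem pone : PONE' :=
  pone_of' xt rlb lift vert etg nq nrm alg lam sgn (dgz_of Rh.int_) rfa rfb dim1 trv

end Vale.Agent.P280Y
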