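import Vale.Agent.P280Y.One
import Vale.Agent.P280Y.Defs
import Vale.Agent.P280Z.Cv.Six
import Vale.Agent.P280Z.M2.K1.All

/-!
# P280Y: dimension seven, fibrations in curves
-/

open scoped Manifold ContDiff Topology Matrix
open Set Filter
open Vale.Agent.P272.K Vale.Agent.P285.H281.FD Vale.Agent.P281Z
open Vale.Agent.P280Z Vale.Agent.P280Z.Rh Vale.Agent.P280Z.Cv

noncomputable section

namespace Vale.Agent.P280Y

theorem ih7 : IH 7 := fun m hm W hW => by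
  rcases (Nat.lt_succ_iff.1 hm).eq_or_lt with rfl | h
  · exact Fb.six W hW.1 hW.2 (fun _ _ => En.c61) fun _ _ =>
      c62_c1 fun _ _ _ _ _ _ _ _ _ _ _ _ _ _ h _ hY => M2.K1.num h hY
  · exact Fb.ih6 m h W hW

theorem fam {T : CT} (hT : T.OK) {n : ℕ} {V : Mf n} (B : Bas T V) (hF : Fano n V.X) (hn : 1 < n)
    (h : Fibred n V.X) : Nontrivial B.J ∧ ∃ j, (B.F j).m = 0 := by
  obtain ⟨m, Y, π, L, x, rfl, hL, hP, hπ, hx⟩ := h
  obtain ⟨hc, hk⟩ := (fano_iff hT V).1 hF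
  have hw := hT.c1.pos Y L hL hP
  have dw := Ma.dg_pull hT hπ (hT.po.deg hw)
  have h1 : 0 < T.int V (T.pull hπ (T.c1 Y L) ^ m * cX T V ^ 1) := by
    refine hT.po.pos m 1 x (hT.po.pull hπ hw) hk rfl rfl ?_
    have k1 := LinearMap.finrank_range_add_finrank_ker (Df (m + 1) m π x)
    rw [(LinearMap.range_eq_top (f := Df (m + 1) m π x)).2
      (hx _ _ (CmpH.at_ch _ _) (CmpH.at_ch _ _)), finrank_top] at k1
    simp only [Module.finrank_fin_fun] at k1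
    exact k1.le
  have h2 : T.pull hπ (T.c1 Y L) ^ m ≠ 0 := fun e => by
    rw [e, zero_mul, map_zero] at h1
    exact lt_irrefl _ h1
  obtain ⟨j, hj⟩ : ∃ j, (B.F j).dg (T.pull hπ (T.c1 Y L)) = 0 := by
    by_contra k
    have k1 := Ma.kc_vol hT (B.kc _ dw fun j =>
      ((B.F j).dg_nn hT (Ma.nn_pull hT hπ hw)).lt_of_ne fun e => k ⟨j, e.symm⟩) x
    rw [← map_pow, ← Ma.dg_pow hT (hT.po.deg hw) (m + 1), hT.rg.pr_zero _ _ _ m.lt_succ_self,
      map_zero, map_zero] at k1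
    exact lt_irrefl _ k1
  refine ⟨?_, j, ?_⟩
  · by_contra k
    have := not_nontrivial_iff_subsingleton.1 k
    refine h2 ?_
    rw [B.span _ dw, Fintype.sum_subsingleton _ j, hj, zero_smul, zero_pow (by omega)]
  · have k1 := Pr.rd _ _ _ _ _ _ (Pr.fax T hT B.F j (B.Q {j}) hc)
    have k2 := (B.Q {j}).dim
    have k3 : ¬ (B.Q {j}).y < m := fun e =>
      h2 ((B.Q {j}).pow_zero' hT dw (fun i hi => by rw [show i = j from hi]; exact hj) e)
    omega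

theorem seven {n : ℕ} (V : Mf n) (hF : Fano n V.X) (hN : NefT n V.X)
    (h : n ≤ 6 ∨ n = 7 ∧ Fibred n V.X) : Gp.RatHom n V.X := by
  have := hF.1
  refine Gp.of_pos V hF.2 ?_
  rcases h with h | ⟨rfl, h⟩
  · exact ih7 n (by omega) V ⟨hF, hN⟩
  · obtain ⟨B⟩ := bas_of Sq.sys Mb.nsa Ma.rel nrc nbase th_ct (by norm_num) ⟨hF, hN⟩
    obtain ⟨k1, k2⟩ := fam th_ct.ok B hF (by norm_num) h
    exact pone _ th_ct V B ih7 ⟨hF, hN⟩ k1 k2

end Vale.Agent.P280Y
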